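import Vale.Agent.P269.G1I.H660.Closure

/-!
# Getzler's relation with Euler fields and one arbitrary vector field

`(s+1) (E^s X) (de 2) = X (de (s+2)) - (E X) (de (s+1))` for every vector field `X`.
-/

namespace Vale.Agent.P269.G2.H861

open Finset.HasAntidiagonal (antidiagonal)
open Vale.Agent.P269.G1
open Vale.Agent.P269.G1.H660

variable {R A O : Type*} [CommRing R] [Algebra ℚ R] [CommRing A] [Algebra R A]
    [Ring O] [Algebra R O] (S : Frob R A O)

/-! ## The part with `G` -/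

theorem nab_Ex (x : A) (n : ℕ) : S.nab (S.E * x) (S.E ^ n) =
    S.E * S.nab x (S.E ^ n) + S.E ^ n * S.d x - S.d (x * S.E ^ n) := by
  rw [H920.nab_pow, H920.nab_pow, H920.P_E_mul]
  ring

theorem nab_diff (x : A) (n : ℕ) : S.nab x (S.E ^ (n + 1)) - S.nab (S.E * x) (S.E ^ n) =
    x * S.E ^ n + x * S.d (S.E ^ n) - S.E ^ n * S.d x := by
  rw [nab_Ex, pow_succ', H920.nab_E_mul]
  ring

theorem gsumHX (s : ℕ) (x : A) : ∑ p ∈ antidiagonal s,
    (2 * S.H (S.E ^ (p.1 + 1)) (S.E ^ (p.2 + 1) * x) - S.H (S.E ^ (p.1 + 2)) (S.E ^ p.2 * x)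
      - S.H (S.E ^ (p.2 + 2) * x) (S.E ^ p.1)) =
    S.H (S.E ^ (s + 1) * x) S.E + S.H (S.E * x) (S.E ^ (s + 1)) - S.H x (S.E ^ (s + 2)) := by
  have h1 := tele (fun i l => S.H (S.E ^ (i + 1)) (S.E ^ l * x)) s
  have h2 := tele (fun i l => S.H (S.E ^ i) (S.E ^ (l + 1) * x)) s
  simp only [zero_add, pow_one, pow_zero, one_mul] at h1 h2
  rw [H_comm S 1, H_one, zero_sub] at h2
  have h3 : ∑ p ∈ antidiagonal s,
      (2 * S.H (S.E ^ (p.1 + 1)) (S.E ^ (p.2 + 1) * x) - S.H (S.E ^ (p.1 + 2)) (S.E ^ p.2 * x)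
      - S.H (S.E ^ (p.2 + 2) * x) (S.E ^ p.1)) =
      ∑ p ∈ antidiagonal s, (S.H (S.E ^ (p.1 + 1)) (S.E ^ (p.2 + 1) * x)
        - S.H (S.E ^ (p.1 + 1 + 1)) (S.E ^ p.2 * x))
      - ∑ p ∈ antidiagonal s, (S.H (S.E ^ p.1) (S.E ^ (p.2 + 1 + 1) * x)
        - S.H (S.E ^ (p.1 + 1)) (S.E ^ (p.2 + 1) * x)) := by
    rw [← Finset.sum_sub_distrib]
    refine Finset.sum_congr rfl fun p _ => ?_
    rw [H_comm S (S.E ^ (p.2 + 2) * x)]
    ring
  rw [h3, h1, h2, H_comm S S.E, H_comm S (S.E ^ (s + 1)) (S.E * x),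
    H_comm S (S.E ^ (s + 1 + 1)) x]
  ring

theorem gsumTX (s : ℕ) (x : A) : ∑ p ∈ antidiagonal s, H660.T S (S.E ^ p.1) (S.E ^ p.2 * x) =
    S.E ^ (s + 1) * S.d x - S.d (S.E ^ (s + 1) * x) - x * S.d (S.E ^ (s + 1))
      + (s + 1) • (S.d (S.E ^ (s + 1) * x) + S.E ^ s * x * S.d S.E - S.E * S.d (S.E ^ s * x)) := by
  have h0 : ∀ p ∈ antidiagonal s, H660.T S (S.E ^ p.1) (S.E ^ p.2 * x) =
      (-(S.E ^ p.1 * S.d (S.E ^ (p.2 + 1) * x) - S.E ^ (p.1 + 1) * S.d (S.E ^ p.2 * x))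
      + (S.E ^ (p.2 + 1) * x * S.d (S.E ^ p.1) - S.E ^ p.2 * x * S.d (S.E ^ (p.1 + 1))))
      + (S.d (S.E ^ (s + 1) * x) + S.E ^ s * x * S.d S.E - S.E * S.d (S.E ^ s * x)) := by
    intro p hp
    rw [Finset.HasAntidiagonal.mem_antidiagonal] at hp
    unfold H660.T
    have e1 : S.E ^ p.2 * x * S.E = S.E ^ (p.2 + 1) * x := by ring
    have e2 : S.E ^ p.1 * (S.E ^ p.2 * x) * S.E = S.E ^ (s + 1) * x := by rw [← hp]; ring
    have e3 : S.E ^ p.1 * (S.E ^ p.2 * x) = S.E ^ s * x := by rw [← hp]; ring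
    have e4 : S.E ^ p.1 * S.E = S.E ^ (p.1 + 1) := by ring
    rw [e2, e3, e1, e4]
    ring
  have h1 := tele (fun i l => S.E ^ i * S.d (S.E ^ l * x)) s
  have h2 := tele (fun i l => S.E ^ l * x * S.d (S.E ^ i)) s
  simp only [pow_zero, one_mul, S.d_one, mul_zero] at h1 h2
  rw [Finset.sum_congr rfl h0, Finset.sum_add_distrib, Finset.sum_add_distrib,
    Finset.sum_neg_distrib, h1, h2, Finset.sum_const, Finset.Nat.card_antidiagonal]
  ring

/-- the part with `G` -/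
theorem gpartX (s : ℕ) (x : A) : ∑ p ∈ antidiagonal s,
    ((2 * S.H (S.E ^ p.1 * S.E) (S.E * (S.E ^ p.2 * x))
      + S.H (S.E ^ p.1 * (S.E ^ p.2 * x)) (S.E * S.E)
      - S.H (S.E ^ p.1 * S.E * S.E) (S.E ^ p.2 * x)
      - S.H (S.E * S.E * (S.E ^ p.2 * x)) (S.E ^ p.1)
      - 2 * S.H (S.E ^ p.1 * S.E * (S.E ^ p.2 * x)) S.E)
      + S.G (H660.T S (S.E ^ p.1) (S.E ^ p.2 * x))) =
    (s + 1) * S.der (S.E ^ s * x) (S.G (S.E ^ 2)) - S.der x (S.G (S.E ^ (s + 2)))
      + S.der (S.E * x) (S.G (S.E ^ (s + 1))) := by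
  have h0 : ∀ p ∈ antidiagonal s,
    ((2 * S.H (S.E ^ p.1 * S.E) (S.E * (S.E ^ p.2 * x))
      + S.H (S.E ^ p.1 * (S.E ^ p.2 * x)) (S.E * S.E)
      - S.H (S.E ^ p.1 * S.E * S.E) (S.E ^ p.2 * x)
      - S.H (S.E * S.E * (S.E ^ p.2 * x)) (S.E ^ p.1)
      - 2 * S.H (S.E ^ p.1 * S.E * (S.E ^ p.2 * x)) S.E)
      + S.G (H660.T S (S.E ^ p.1) (S.E ^ p.2 * x))) =
      (2 * S.H (S.E ^ (p.1 + 1)) (S.E ^ (p.2 + 1) * x) - S.H (S.E ^ (p.1 + 2)) (S.E ^ p.2 * x)
      - S.H (S.E ^ (p.2 + 2) * x) (S.E ^ p.1))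
      + (S.H (S.E ^ s * x) (S.E * S.E) - 2 * S.H (S.E ^ (s + 1) * x) S.E)
      + S.G (H660.T S (S.E ^ p.1) (S.E ^ p.2 * x)) := by
    intro p hp
    rw [Finset.HasAntidiagonal.mem_antidiagonal] at hp
    have e1 : S.E ^ p.1 * S.E = S.E ^ (p.1 + 1) := by ring
    have e2 : S.E * (S.E ^ p.2 * x) = S.E ^ (p.2 + 1) * x := by ring
    have e3 : S.E ^ p.1 * (S.E ^ p.2 * x) = S.E ^ s * x := by rw [← hp]; ring
    have e4 : S.E ^ p.1 * S.E * S.E = S.E ^ (p.1 + 2) := by ring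
    have e5 : S.E * S.E * (S.E ^ p.2 * x) = S.E ^ (p.2 + 2) * x := by ring
    have e6 : S.E ^ p.1 * S.E * (S.E ^ p.2 * x) = S.E ^ (s + 1) * x := by rw [← hp]; ring
    rw [e4, e6, e5, e3, e1, e2]
    ring
  have hd := nab_diff S x (s + 1)
  have hG := congrArg S.G hd
  rw [map_sub, map_sub, map_add] at hG
  have h1 : S.H (S.E * x) (S.E ^ (s + 1)) = S.der (S.E * x) (S.G (S.E ^ (s + 1)))
      - S.G (S.nab (S.E * x) (S.E ^ (s + 1))) := rfl
  have h2 : S.H x (S.E ^ (s + 2)) = S.der x (S.G (S.E ^ (s + 2)))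
      - S.G (S.nab x (S.E ^ (s + 2))) := rfl
  rw [Finset.sum_congr rfl h0, Finset.sum_add_distrib, Finset.sum_add_distrib, gsumHX,
    Finset.sum_const, Finset.Nat.card_antidiagonal, ← map_sum, gsumTX, map_add, map_sub, map_sub,
    map_nsmul, map_sub, map_add, nsmul_eq_mul, nsmul_eq_mul, H_E, H_EE, h1, h2]
  have e : S.E ^ s * x * S.E = S.E ^ (s + 1) * x := by ring
  have e' : S.E ^ 2 = S.E * S.E := by ring
  have e'' : x * S.E ^ (s + 1) = S.E ^ (s + 1) * x := by ring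
  rw [e''] at hG
  rw [e, e']
  push_cast
  linear_combination hG

/-! ## The part with `mu` -/

/-- commutator of `U` and `psi` -/
theorem U_psi (n : ℕ) : S.C S.E * S.psi n - S.psi n * S.C S.E = H660.K S (S.E ^ n) := by
  induction n with
  | zero => simp [H920.psi_zero, H660.K]
  | succ n ih =>
    have e : S.C S.E * (S.C S.E * S.psi n + S.mu * S.C (S.E ^ n))
        - (S.C S.E * S.psi n + S.mu * S.C (S.E ^ n)) * S.C S.E =
        S.C S.E * (S.C S.E * S.psi n - S.psi n * S.C S.E)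
          + (S.C S.E * S.mu * S.C (S.E ^ n) - S.mu * (S.C (S.E ^ n) * S.C S.E)) := by
      noncomm_ring
    rw [H920.psi_succ, e, ih, CC_comm S (S.E ^ n) S.E]
    unfold H660.K
    rw [pow_succ', map_mul]
    noncomm_ring

theorem c4O_pow (w : A) (i : ℕ) : S.c4O w (S.E ^ i) =
    S.C w * S.psi i - S.psi i * S.C w + S.C (H920.P S w i) := by
  unfold Frob.c4O
  rw [H920.nabO_pow, H920.nab_pow, map_sub]
  have e : S.C ((i : A) * (w * S.E ^ (i - 1))) = (i : O) * S.C (w * S.E ^ (i - 1)) := by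
    rw [← nsmul_eq_mul, map_nsmul, nsmul_eq_mul]
  rw [e]; abel

/-- the terms with two `mu` cancel one by one -/
theorem str_c4O_K (w : A) (i : ℕ) : S.str (S.c4O (S.E ^ i) w * H660.K S S.E) =
    S.str (H660.K S (S.E ^ i) * H660.K S w) := by
  rw [H660.c4O_comm, c4O_pow, add_mul, map_add, H660.str_CK, add_zero, ← U_psi]
  unfold H660.K
  have e1 : (S.C w * S.psi i - S.psi i * S.C w) * (S.C S.E * S.mu - S.mu * S.C S.E) =
      S.C w * (S.psi i * S.C S.E * S.mu) - S.C w * (S.psi i * S.mu * S.C S.E)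
        - S.psi i * (S.C w * S.C S.E) * S.mu + S.psi i * S.C w * S.mu * S.C S.E := by
    noncomm_ring
  have e2 : (S.C S.E * S.psi i - S.psi i * S.C S.E) * (S.C w * S.mu - S.mu * S.C w) =
      S.C S.E * (S.psi i * S.C w * S.mu) - S.C S.E * (S.psi i * S.mu * S.C w)
        - S.psi i * (S.C w * S.C S.E) * S.mu + S.psi i * S.C S.E * S.mu * S.C w := by
    rw [CC_comm S w S.E]
    noncomm_ring
  have e3 : S.str (S.C w * (S.psi i * S.mu * S.C S.E)) =
      S.str (S.C S.E * (S.psi i * S.mu * S.C w)) := by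
    rw [S.str_comm (S.C w), S.str_comm (S.C S.E), mul_assoc (S.psi i * S.mu),
      mul_assoc (S.psi i * S.mu), CC_comm S S.E w]
  rw [e1, e2, map_add, map_sub, map_sub, map_add, map_sub, map_sub,
    S.str_comm (S.C w) (S.psi i * S.C S.E * S.mu), S.str_comm (S.C S.E) (S.psi i * S.C w * S.mu),
    e3]
  ring

theorem K_eq' (x : A) (a b : ℕ) : H920.K S x a b =
    (b : R) * S.str (S.mu * S.C (S.E ^ a) * S.mu * S.C (S.E ^ (b - 1) * x)) + H920.Z S x a b := by
  unfold H920.K H920.Z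
  rw [H920.nabO_pow, mul_sub, mul_add, map_sub, map_add, mul_comm x]
  have : S.str (S.mu * S.C (S.E ^ a) * S.mu * ((b : O) * S.C (S.E ^ (b - 1) * x))) =
      (b : R) * S.str (S.mu * S.C (S.E ^ a) * S.mu * S.C (S.E ^ (b - 1) * x)) := by
    rw [← nsmul_eq_mul, mul_smul_comm, map_nsmul, nsmul_eq_mul]
  rw [this]
  ring

theorem der_B (x : A) (n : ℕ) : S.der x (H920.B S n) =
    2 * ∑ i ∈ Finset.range n, ((n - 1 - i : ℕ) : R) *
      S.str (S.mu * S.C (S.E ^ i) * S.mu * S.C (S.E ^ (n - 1 - i - 1) * x)) := by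
  rw [H920.B_eq, H920.der_sum]
  simp only [H920.der_t]
  rw [Finset.sum_add_distrib]
  have h1 : ∑ i ∈ Finset.range n, H920.K S x (n - 1 - i) i =
      ∑ i ∈ Finset.range n, H920.K S x i (n - 1 - i) := by
    rw [← Finset.sum_range_reflect]
    refine Finset.sum_congr rfl fun i hi => ?_
    have := Finset.mem_range.1 hi
    congr 1
    omega
  rw [h1, ← two_mul]
  congr 1
  simp only [K_eq']
  rw [Finset.sum_add_distrib, H920.Z_range, add_zero]

theorem der_B_sub (x : A) (s : ℕ) :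
    S.der x (H920.B S (s + 2)) - S.der (S.E * x) (H920.B S (s + 1)) =
    2 * ∑ p ∈ antidiagonal s,
      S.str (S.mu * S.C (S.E ^ p.1) * S.mu * S.C (S.E ^ p.2 * x)) := by
  rw [der_B, der_B, Finset.sum_range_succ _ (s + 1), ← mul_sub]
  congr 1
  rw [show s + 2 - 1 - (s + 1) = 0 by omega, Nat.cast_zero, zero_mul, add_zero,
    ← Finset.sum_sub_distrib, Finset.Nat.sum_antidiagonal_eq_sum_range_succ_mk]
  refine Finset.sum_congr rfl fun i hi => ?_
  have hi' := Finset.mem_range.1 hi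
  obtain ⟨k, rfl⟩ : ∃ k, s = i + k := ⟨s - i, by omega⟩
  have e1 : i + k + 2 - 1 - i = k + 1 := by omega
  have e2 : i + k + 1 - 1 - i = k := by omega
  have e3 : i + k - i = k := by omega
  simp only [e1, e3, Nat.add_sub_cancel]
  rcases k with _ | k
  · simp
  · have e4 : S.E ^ (k + 1 - 1) * (S.E * x) = S.E ^ (k + 1) * x := by
      rw [Nat.add_sub_cancel]; ring
    rw [e4]
    push_cast
    ring


/-! ## The part with the trace of multiplication -/

/-- `rho` as an element of `A` -/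
noncomputable def rr : A := algebraMap R A (algebraMap ℚ R S.rho)

theorem M_eq (y : A) : H920.M S y = S.d y - rr S * y := by
  unfold H920.M rr
  rw [Algebra.smul_def]

theorem d_rr (y : A) : S.d (rr S * y) = rr S * S.d y := by
  unfold rr
  rw [← Algebra.smul_def, map_smul, Algebra.smul_def]

theorem th_rr (y : A) : th S (rr S * y) = algebraMap ℚ R S.rho * th S y := by
  unfold rr th
  rw [← Algebra.smul_def, map_smul, map_smul, smul_eq_mul]

theorem c4O_smul (x : A) (g : R) (y : A) : S.c4O x (g • y) = g • S.c4O x y := by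
  unfold Frob.c4O
  rw [map_smul, S.nabO_smul, S.nab_smul, map_add, map_smul, map_smul, smul_sub]
  abel

theorem Hth_rr (x y : A) : Hth S x (rr S * y) = algebraMap ℚ R S.rho * Hth S x y := by
  unfold rr Hth
  rw [← Algebra.smul_def, c4O_smul, map_smul, smul_eq_mul]

theorem Hth_sub (x y z : A) : Hth S x (y - z) = Hth S x y - Hth S x z := by
  have := Hth_add S x (y - z) z
  rw [sub_add_cancel] at this
  rw [this]; ring

theorem Hth_pow (x : A) (n : ℕ) : Hth S x (S.E ^ n) = th S (H920.P S x n) :=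
  H920.str_c4O_pow S x n

/-- `∑ E^i d(E^j x) + E^j x d(E^i)` -/
noncomputable def Sg (x : A) : ℕ → A
  | 0 => 0
  | n + 1 => S.E * Sg x n + S.d (S.E ^ n * x) + x * S.d (S.E ^ n)

theorem Sg_sum (x : A) (s : ℕ) : Sg S x (s + 1) = ∑ p ∈ antidiagonal s,
    (S.E ^ p.1 * S.d (S.E ^ p.2 * x) + S.E ^ p.2 * x * S.d (S.E ^ p.1)) := by
  rw [Finset.sum_add_distrib]
  induction s with
  | zero => simp [Sg, S.d_one]
  | succ s ih =>
    rw [Finset.Nat.sum_antidiagonal_succ (f := fun p : ℕ × ℕ =>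
      S.E ^ p.1 * S.d (S.E ^ p.2 * x)), Finset.Nat.sum_antidiagonal_succ' (f := fun p : ℕ × ℕ =>
      S.E ^ p.2 * x * S.d (S.E ^ p.1))]
    have h1 : ∀ p ∈ antidiagonal s, S.E ^ (p.1 + 1) * S.d (S.E ^ p.2 * x) =
        S.E * (S.E ^ p.1 * S.d (S.E ^ p.2 * x)) := fun p _ => by ring
    have h2 : ∀ p ∈ antidiagonal s, S.E ^ (p.2 + 1) * x * S.d (S.E ^ p.1) =
        S.E * (S.E ^ p.2 * x * S.d (S.E ^ p.1)) := fun p _ => by ring
    simp only at h1 h2 ⊢
    rw [Finset.sum_congr rfl h1, Finset.sum_congr rfl h2, ← Finset.mul_sum, ← Finset.mul_sum]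
    have h3 : Sg S x (s + 1 + 1) = S.E * Sg S x (s + 1) + S.d (S.E ^ (s + 1) * x)
        + x * S.d (S.E ^ (s + 1)) := rfl
    rw [h3, ih]
    simp only [pow_zero, one_mul]
    ring

/-- the basic identity of vector fields -/
theorem vec (x : A) (n : ℕ) :
    (S.E * S.nab x (H920.Phi S n) - S.nab (S.E * x) (H920.Phi S n)) + H920.Phi S n * S.d x
      + x * H920.Phi S n - S.d (x * H920.Phi S n) + H920.M S (S.nab x (S.E ^ n))
      - rr S * H920.P S x n + H920.P S (S.d x) n + 2 * (n : A) * (rr S * (S.E ^ (n - 1) * x)) =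
    Sg S x n := by
  induction n with
  | zero =>
    simp [H920.Phi_zero, H920.nab_zero, S.nab_one, H920.M_zero, H920.P_zero, Sg]
  | succ n ih =>
    have a1 : S.nab x (H920.Phi S (n + 1)) = x * H920.Phi S n + S.E * S.nab x (H920.Phi S n)
        + x * S.d (H920.Phi S n) - S.d (x * H920.Phi S n) + H920.M S (S.nab x (S.E ^ n)) := by
      rw [H920.Phi_succ, S.nab_add, H920.nab_E_mul, H920.nab_M]
    have a2 : S.nab (S.E * x) (H920.Phi S (n + 1)) = S.E * x * H920.Phi S n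
        + S.E * S.nab (S.E * x) (H920.Phi S n) + S.E * x * S.d (H920.Phi S n)
        - S.d (S.E * x * H920.Phi S n) + H920.M S (S.nab (S.E * x) (S.E ^ n)) := by
      rw [H920.Phi_succ, S.nab_add, H920.nab_E_mul, H920.nab_M]
    have a3 : S.nab x (S.E ^ (n + 1)) = x * S.E ^ n + S.E * S.nab x (S.E ^ n)
        + x * S.d (S.E ^ n) - S.d (x * S.E ^ n) := by
      rw [pow_succ', H920.nab_E_mul]
    have a4 := nab_Ex S x n
    have a5 : x * H920.Phi S (n + 1) = S.E * x * H920.Phi S n + x * H920.M S (S.E ^ n) := by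
      rw [H920.Phi_succ]; ring
    have a6 : (n : A) * (S.E * S.E ^ (n - 1)) = (n : A) * S.E ^ n := by
      rcases n with _ | n
      · simp
      · rw [Nat.add_sub_cancel]; ring
    have a7 : Sg S x (n + 1) = S.E * Sg S x n + S.d (x * S.E ^ n) + x * S.d (S.E ^ n) := by
      rw [mul_comm x (S.E ^ n)]; rfl
    rw [a1, a2, a3, a4, a5, a7, H920.Phi_succ, H920.P_succ, H920.P_succ, Nat.add_sub_cancel]
    simp only [M_eq, map_add, map_sub, mul_add, mul_sub]
    have b1 : S.d (x * S.d (S.E ^ n)) - S.d (x * (rr S * S.E ^ n)) =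
        S.d (x * S.d (S.E ^ n)) - rr S * S.d (x * S.E ^ n) := by
      rw [← d_rr]
      congr 2
      ring
    have b2 : S.d (S.E ^ n * S.d x) = S.d (S.d x * S.E ^ n) := by rw [mul_comm]
    simp only [M_eq] at ih
    push_cast
    linear_combination S.E * ih - 2 * (rr S * x) * a6 - b1 - b2

theorem th_mul_natCast (n : ℕ) (y : A) : th S ((n : A) * y) = (n : R) * th S y := by
  rw [← nsmul_eq_mul, th_nsmul, nsmul_eq_mul]

/-- derivative of `th (Phi)` along `x` and along `E x` -/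
theorem der_th_Phi (x : A) (n : ℕ) :
    S.der x (th S (H920.Phi S (n + 1))) - S.der (S.E * x) (th S (H920.Phi S n)) =
    Hth S x (S.d (S.E ^ n)) - Hth S (S.E ^ n) (S.d x) + th S (Sg S x n)
      - 2 * (n : R) * (algebraMap ℚ R S.rho * th S (S.E ^ (n - 1) * x)) := by
  have h := congrArg (th S) (vec S x n)
  rw [th_add, th_add, th_sub, th_add, th_sub, th_add, th_add, th_sub, th_rr] at h
  have h2 : th S (2 * (n : A) * (rr S * (S.E ^ (n - 1) * x))) =
      2 * (n : R) * (algebraMap ℚ R S.rho * th S (S.E ^ (n - 1) * x)) := by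
    have := th_mul_natCast S (2 * n) (rr S * (S.E ^ (n - 1) * x))
    push_cast at this
    rw [this, th_rr]
  rw [h2] at h
  have a1 : S.nab x (H920.Phi S (n + 1)) = x * H920.Phi S n + S.E * S.nab x (H920.Phi S n)
      + x * S.d (H920.Phi S n) - S.d (x * H920.Phi S n) + H920.M S (S.nab x (S.E ^ n)) := by
    rw [H920.Phi_succ, S.nab_add, H920.nab_E_mul, H920.nab_M]
  have a2 : Hth S x (H920.Phi S (n + 1)) = Hth S (S.E * x) (H920.Phi S n)
      + th S (H920.Phi S n * S.d x) - th S (x * S.d (H920.Phi S n))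
      + (Hth S x (S.d (S.E ^ n)) - algebraMap ℚ R S.rho * th S (H920.P S x n)) := by
    rw [H920.Phi_succ, Hth_add, Hth_rec, M_eq, Hth_sub, Hth_rr, Hth_pow, mul_comm x S.E]
  have a3 : Hth S (S.E ^ n) (S.d x) = th S (H920.P S (S.d x) n) := by
    rw [Hth_comm, Hth_pow]
  rw [der_th, der_th, a1, a2, a3, th_add, th_sub, th_add, th_add]
  linear_combination h

/-- the remaining terms of Getzler's relation -/
theorem Bpoint (x w : A) :
    2 * (Hth S x (Gam S S.E w) + th S (S.c4 (S.d S.E) x w)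
      + (th S (w * S.d (S.d x)) - th S (S.d x * S.d w))
      - S.str (S.c4O x w * S.C (S.d S.E))
      - S.str (S.C x * S.c4O (S.d S.E) w)) + (H660.f S x w - H660.f S w x) =
    (Hth S (S.E * x) (S.d w) - Hth S x (S.d (S.E * w)))
      + (Hth S (S.E * w) (S.d x) - Hth S w (S.d (S.E * x)))
      + th S (x * S.d w) - th S (w * S.d x) := by

  have h2 := Hth_mul S x w (S.d S.E)
  have h3 := Hth_mul S w x (S.d S.E)
  have h4 := Hth_rec S x (S.d w)
  have h5 := Hth_rec S w (S.d x)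
  rw [c4_comm23 S x w (S.d S.E), c4_comm12 S x (S.d S.E) w] at h2
  rw [c4_comm23 S w x (S.d S.E), c4_comm12 S w (S.d S.E) x, c4_comm23 S (S.d S.E) w x] at h3
  rw [H660.c4O_comm S x (S.d S.E)] at h2
  rw [H660.c4O_comm S w (S.d S.E), H660.c4O_comm S w x] at h3
  rw [S.str_comm (S.C (S.d S.E))] at h2 h3
  have g1 : Hth S x (Gam S S.E w) = Hth S x (S.E * S.d w) + Hth S x (w * S.d S.E)
      - Hth S x (S.d (S.E * w)) := by
    unfold Gam; rw [Hth_sub, Hth_add]
  have g2 : Hth S w (Gam S S.E x) = Hth S w (S.E * S.d x) + Hth S w (x * S.d S.E)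
      - Hth S w (S.d (S.E * x)) := by
    unfold Gam; rw [Hth_sub, Hth_add]
  have e1 : th S (S.d w * S.d x) = th S (S.d x * S.d w) := by rw [mul_comm]
  rw [e1] at h4
  unfold H660.f
  rw [g1, g2, mul_comm S.E x, mul_comm S.E w]
  rw [mul_comm x S.E] at h4
  rw [mul_comm w S.E] at h5
  rw [mul_comm x S.E, mul_comm w S.E]
  linear_combination h2 + h3 + h4 + h5

theorem om24 (n : ℕ) : 24 * S.om n = -6 * H920.B S n - th S (H920.Phi S n) := by
  have h4 : (24 : R) * algebraMap ℚ R (1 / 4) = 6 := by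
    rw [← map_ofNat (algebraMap ℚ R) 24, ← map_mul, ← map_ofNat (algebraMap ℚ R) 6]; norm_num
  have h24 : (24 : R) * algebraMap ℚ R (1 / 24) = 1 := by
    rw [← map_ofNat (algebraMap ℚ R) 24, ← map_mul]; norm_num
  rw [H598.om_eq, Algebra.smul_def, Algebra.smul_def, H920.Phi_eq]
  unfold H920.B th
  linear_combination (-S.str (S.mu * S.psi n)) * h4 - S.str (S.C (S.phi n)) * h24

theorem der24 (x : A) (g : R) : S.der x (24 * g) = 24 * S.der x g := by
  have := der_natmul S x 24 g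
  push_cast at this
  exact this

theorem der_om24 (x : A) (n : ℕ) : 24 * S.der x (S.om n) =
    -6 * S.der x (H920.B S n) - S.der x (th S (H920.Phi S n)) := by
  have e6 := der_natmul S x 6 (H920.B S n)
  push_cast at e6
  rw [← der24, om24, der_sub, neg_mul, der_neg, e6]
  ring

theorem der_om_sub (x : A) (s : ℕ) :
    24 * (S.der x (S.om (s + 2)) - S.der (S.E * x) (S.om (s + 1))) =
    -12 * ∑ p ∈ antidiagonal s, S.str (S.mu * S.C (S.E ^ p.1) * S.mu * S.C (S.E ^ p.2 * x))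
      - (Hth S x (S.d (S.E ^ (s + 1))) - Hth S (S.E ^ (s + 1)) (S.d x) + th S (Sg S x (s + 1))
      - 2 * ((s : R) + 1) * (algebraMap ℚ R S.rho * th S (S.E ^ s * x))) := by
  have h1 := der_om24 S x (s + 2)
  have h2 := der_om24 S (S.E * x) (s + 1)
  have h3 := der_B_sub S x s
  have h4 := der_th_Phi S x (s + 1)
  rw [Nat.add_sub_cancel] at h4
  push_cast at h4
  linear_combination h1 - h2 - 6 * h3 - h4

theorem Hth_zero (x : A) : Hth S x 0 = 0 := by rw [Hth_comm, Hth_zero_left]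

theorem Hth_one_left (x : A) : Hth S 1 x = 0 := by rw [Hth_comm, Hth_one]

theorem sumQX (s : ℕ) (x : A) : ∑ p ∈ antidiagonal s, H660.Q S (S.E ^ p.1) (S.E ^ p.2 * x) =
    24 * (S.der x (S.om (s + 2)) - S.der (S.E * x) (S.om (s + 1)))
      - 24 * ((s + 1) * S.der (S.E ^ s * x) (S.om 2)) := by
  have h0 : ∀ p ∈ antidiagonal s, H660.Q S (S.E ^ p.1) (S.E ^ p.2 * x) =
      (-24 * S.der (S.E ^ s * x) (S.om 2) + 2 * algebraMap ℚ R S.rho * th S (S.E ^ s * x))
      + -12 * S.str (S.mu * S.C (S.E ^ p.1) * S.mu * S.C (S.E ^ p.2 * x))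
      + -(Hth S (S.E ^ p.1) (S.d (S.E ^ (p.2 + 1) * x))
        - Hth S (S.E ^ (p.1 + 1)) (S.d (S.E ^ p.2 * x)))
      + (Hth S (S.E ^ (p.2 + 1) * x) (S.d (S.E ^ p.1))
        - Hth S (S.E ^ p.2 * x) (S.d (S.E ^ (p.1 + 1))))
      + -th S (S.E ^ p.1 * S.d (S.E ^ p.2 * x) + S.E ^ p.2 * x * S.d (S.E ^ p.1)) := by
    intro p hp
    rw [Finset.HasAntidiagonal.mem_antidiagonal] at hp
    have h1 := Qpoint S (S.E ^ p.1) (S.E ^ p.2 * x)
    have h2 := Bpoint S (S.E ^ p.1) (S.E ^ p.2 * x)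
    have h3 := str_c4O_K S (S.E ^ p.2 * x) p.1
    have h4 := der_om_two S (S.E ^ s * x)
    have e1 : S.E * S.E ^ p.1 = S.E ^ (p.1 + 1) := by ring
    have e2 : S.E * (S.E ^ p.2 * x) = S.E ^ (p.2 + 1) * x := by ring
    have e3 : S.E ^ p.1 * (S.E ^ p.2 * x) = S.E ^ s * x := by rw [← hp]; ring
    rw [e1, e2] at h2
    unfold H660.P at h1
    rw [e3, Hth_comm S (S.d S.E)] at h1
    rw [th_add]
    linear_combination h1 + h2 - 2 * h3 + h4
  have t1 := tele (fun i l => Hth S (S.E ^ i) (S.d (S.E ^ l * x))) s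
  have t2 := tele (fun i l => Hth S (S.E ^ l * x) (S.d (S.E ^ i))) s
  simp only [pow_zero, one_mul, S.d_one, Hth_one_left, Hth_zero, zero_sub] at t1 t2
  have hS := congrArg (th S) (Sg_sum S x s)
  rw [th_sum] at hS
  have hD := der_om_sub S x s
  rw [Finset.sum_congr rfl h0, Finset.sum_add_distrib, Finset.sum_add_distrib,
    Finset.sum_add_distrib, Finset.sum_add_distrib, Finset.sum_neg_distrib,
    Finset.sum_neg_distrib, t1, t2, Finset.sum_const, Finset.Nat.card_antidiagonal,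
    ← Finset.mul_sum, nsmul_eq_mul, ← hS, hD]
  push_cast
  ring

/-- **Getzler's relation with Euler fields and one arbitrary vector field** -/
theorem keyX (hG : S.Getzler) (s : ℕ) (x : A) :
    (s + 1 : R) * S.der (S.E ^ s * x) (S.de 2) =
      S.der x (S.de (s + 2)) - S.der (S.E * x) (S.de (s + 1)) := by
  have h0 : ∀ p ∈ antidiagonal s,
      24 * ((2 * S.H (S.E ^ p.1 * S.E) (S.E * (S.E ^ p.2 * x))
      + S.H (S.E ^ p.1 * (S.E ^ p.2 * x)) (S.E * S.E)
      - S.H (S.E ^ p.1 * S.E * S.E) (S.E ^ p.2 * x)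
      - S.H (S.E * S.E * (S.E ^ p.2 * x)) (S.E ^ p.1)
      - 2 * S.H (S.E ^ p.1 * S.E * (S.E ^ p.2 * x)) S.E)
      + S.G (H660.T S (S.E ^ p.1) (S.E ^ p.2 * x))) + H660.Q S (S.E ^ p.1) (S.E ^ p.2 * x) = 0 := by
    intro p _
    have h1 := getz S hG (S.E ^ p.1) (S.E ^ p.2 * x)
    have h2 := gpoint S (S.E ^ p.1) (S.E ^ p.2 * x)
    have h3 : H660.Q S (S.E ^ p.1) (S.E ^ p.2 * x) =
        (Hth S (S.E ^ p.1) (S.c4 S.E S.E (S.E ^ p.2 * x))
          + 2 * Hth S S.E (S.c4 (S.E ^ p.1) S.E (S.E ^ p.2 * x))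
          + Hth S (S.E ^ p.2 * x) (S.c4 (S.E ^ p.1) S.E S.E))
        + th S (S.c5 S.E S.E (S.E ^ p.1) (S.E ^ p.2 * x))
        - 4 * S.str (S.c4O (S.E ^ p.1) S.E * S.c4O (S.E ^ p.2 * x) S.E)
        - 2 * S.str (S.c4O (S.E ^ p.1) (S.E ^ p.2 * x) * S.c4O S.E S.E) := by
      unfold H660.Q
      rw [c4_E', c4_E', c4_E', c4O_E, c4O_E, c4O_E, Hth_comm S S.E, Hth_E]
    rw [h3]
    linear_combination h1 - h2
  have h1 := Finset.sum_eq_zero h0
  rw [Finset.sum_add_distrib, ← Finset.mul_sum, gpartX, sumQX] at h1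
  have h2 : ∀ n, S.de n = S.G (S.E ^ n) - S.om n := fun _ => rfl
  rw [h2, h2, h2, der_sub, der_sub, der_sub]
  have h24 : algebraMap ℚ R (1 / 24) * (24 : R) = 1 := by
    rw [← map_ofNat (algebraMap ℚ R) 24, ← map_mul]; norm_num
  have h4 := congrArg (fun z => algebraMap ℚ R (1 / 24) * z) h1
  simp only [mul_zero] at h4
  linear_combination h4 - ((s + 1 : R) * (S.der (S.E ^ s * x) (S.G (S.E ^ 2))
    - S.der (S.E ^ s * x) (S.om 2)) - (S.der x (S.G (S.E ^ (s + 2))) - S.der x (S.om (s + 2)))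
    + (S.der (S.E * x) (S.G (S.E ^ (s + 1))) - S.der (S.E * x) (S.om (s + 1)))) * h24

/-- iterated form -/
theorem der_de (hG : S.Getzler) (n : ℕ) : ∀ x : A,
    2 * S.der x (S.de (n + 2)) = ((n : R) + 1) * (n + 2) * S.der (S.E ^ n * x) (S.de 2) := by
  induction n with
  | zero => intro x; simp
  | succ n ih =>
    intro x
    have h := keyX S hG (n + 1) x
    have h2 := ih (S.E * x)
    have e : S.E ^ n * (S.E * x) = S.E ^ (n + 1) * x := by ring
    rw [e] at h2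
    push_cast at h ⊢
    linear_combination (-2) * h + h2

/-- **the derivative of `a_n = E^n (de 2)` along any vector field** -/
theorem der_a (hG : S.Getzler) (h1 : S.de 1 = 0) (n : ℕ) (x : A) :
    S.der x (S.der (S.E ^ n) (S.de 2)) = (n : R) * S.der (S.E ^ (n - 1) * x) (S.de 2) := by
  rcases n with _ | n
  · have h := key S hG 0
    rw [pow_zero] at h ⊢
    have h2 : S.der 1 (S.de 2) = 0 := by
      have h3 : S.de (0 + 1) = 0 := h1
      rw [h3] at h
      simpa using h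
    rw [h2, der_zero]
    simp
  · have h := key S hG (n + 1)
    have h2 := der_de S hG n x
    have e2 := der_natmul S x 2 (S.de (n + 2))
    have e1 := der_natmul S x (n + 2) (S.der (S.E ^ (n + 1)) (S.de 2))
    have h3 : S.der x (((n + 2 : ℕ) : R) * S.der (S.E ^ (n + 1)) (S.de 2)) =
        S.der x (((2 : ℕ) : R) * S.de (n + 2)) := by
      congr 1
      push_cast at h ⊢
      linear_combination h
    rw [e1, e2] at h3
    refine ncancel (n + 2) (by omega) ?_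
    rw [Nat.add_sub_cancel]
    push_cast at h3 h2 ⊢
    linear_combination h3 + h2

end Vale.Agent.P269.G2.H861
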